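import Vale.Agent.P141.PL.Defs

/-!
# Packed families of squares: the number of members above a square

`Q k p q` : the square `(p, q)` of scale `k` belongs to the family. `cnt Q K k p q` : the number of
members of the family which contain the square (scales `k .. K`, itself included). If every member
has packing `B`, the mass of the members with `cnt > i` decays like `(1 - 1 / B) ^ i`.
-/

namespace Vale.Agent.P141.H662

open Finset
open Vale.Agent.P141.PL (iv ix mem_iv self_mem_iv)

noncomputable section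

open scoped Classical

variable {Q : ℕ → ℤ → ℤ → Prop}

/-- the number of members which contain the square `(p, q)` of scale `k` -/
def cnt (Q : ℕ → ℤ → ℤ → Prop) (K k : ℕ) (p q : ℤ) : ℕ :=
  ((Icc k K).filter fun j => Q j (ix (j - k) p) (ix (j - k) q)).card

/-- mass of the members with `cnt > i` below the root `(R, S)` of scale `K` -/
def mass (Q : ℕ → ℤ → ℤ → Prop) (K : ℕ) (R S : ℤ) (i : ℕ) : ℝ :=
  ∑ k ∈ range (K + 1), (4 : ℝ) ^ k * ∑ p ∈ iv (K - k) R, ∑ q ∈ iv (K - k) S,
    if Q k p q ∧ i < cnt Q K k p q then (1 : ℝ) else 0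

theorem ix_zero (x : ℤ) : ix 0 x = x := by simp [ix]

theorem iv_zero (m : ℤ) : iv 0 m = {m} := by
  ext x
  rw [mem_iv, mem_singleton, ix_zero]

theorem cnt_pos {K k : ℕ} (hk : k ≤ K) {p q : ℤ} (h : Q k p q) : 1 ≤ cnt Q K k p q := by
  unfold cnt
  refine Finset.card_pos.2 ⟨k, ?_⟩
  rw [mem_filter, mem_Icc, Nat.sub_self, ix_zero, ix_zero]
  exact ⟨⟨le_rfl, hk⟩, h⟩

theorem cnt_self (K : ℕ) (R S : ℤ) : cnt Q K K R S = if Q K R S then 1 else 0 := by
  unfold cnt
  rw [Icc_self, filter_singleton, Nat.sub_self, ix_zero, ix_zero]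
  split_ifs <;> simp

theorem cnt_succ {K k : ℕ} (hk : k ≤ K) {p q R S : ℤ} (hp : p ∈ iv (K + 1 - k) R)
    (hq : q ∈ iv (K + 1 - k) S) :
    cnt Q (K + 1) k p q = cnt Q K k p q + if Q (K + 1) R S then 1 else 0 := by
  unfold cnt
  have e : Icc k (K + 1) = insert (K + 1) (Icc k K) := by
    ext j
    simp only [mem_Icc, mem_insert]
    omega
  rw [e, filter_insert, mem_iv.1 hp, mem_iv.1 hq]
  split_ifs with h
  · rw [card_insert_of_notMem]
    simp
  · rfl

theorem sum_iv_halves (j : ℕ) (R : ℤ) (f : ℤ → ℝ) :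
    ∑ x ∈ iv (j + 1) R, f x = ∑ x ∈ iv j (2 * R), f x + ∑ x ∈ iv j (2 * R + 1), f x := by
  have e : iv (j + 1) R = iv j (2 * R) ∪ iv j (2 * R + 1) := by
    ext x
    rw [mem_union, mem_iv, mem_iv, mem_iv]
    have h : ix (j + 1) x = ix j x / 2 := by
      unfold ix
      rw [pow_succ, Int.ediv_ediv_of_nonneg (by positivity)]
    rw [h]
    omega
  have d : Disjoint (iv j (2 * R)) (iv j (2 * R + 1)) := by
    rw [Finset.disjoint_left]
    intro x h1 h2
    rw [mem_iv] at h1 h2
    omega
  rw [e, sum_union d]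

theorem mass_nonneg (Q : ℕ → ℤ → ℤ → Prop) (K : ℕ) (R S : ℤ) (i : ℕ) : 0 ≤ mass Q K R S i := by
  unfold mass
  refine sum_nonneg fun k _ => mul_nonneg (by positivity) (sum_nonneg fun p _ =>
    sum_nonneg fun q _ => ?_)
  split_ifs <;> norm_num

/-- the recursion -/
theorem mass_succ (K : ℕ) (R S : ℤ) (i : ℕ) :
    mass Q (K + 1) R S i = (if Q (K + 1) R S ∧ i = 0 then (4 : ℝ) ^ (K + 1) else 0)
      + (mass Q K (2 * R) (2 * S) (if Q (K + 1) R S then i - 1 else i)
      + mass Q K (2 * R) (2 * S + 1) (if Q (K + 1) R S then i - 1 else i)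
      + (mass Q K (2 * R + 1) (2 * S) (if Q (K + 1) R S then i - 1 else i)
      + mass Q K (2 * R + 1) (2 * S + 1) (if Q (K + 1) R S then i - 1 else i))) := by
  have h1 : ∀ k ∈ range (K + 1), ∑ p ∈ iv (K + 1 - k) R, ∑ q ∈ iv (K + 1 - k) S,
        (if Q k p q ∧ i < cnt Q (K + 1) k p q then (1 : ℝ) else 0)
      = ∑ p ∈ iv (K + 1 - k) R, ∑ q ∈ iv (K + 1 - k) S,
        (if Q k p q ∧ (if Q (K + 1) R S then i - 1 else i) < cnt Q K k p q then (1 : ℝ)
          else 0) := by
    intro k hk
    have hk' : k ≤ K := by have := mem_range.1 hk; omega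
    refine sum_congr rfl fun p hp => sum_congr rfl fun q hq => ?_
    rw [cnt_succ hk' hp hq]
    by_cases hQ : Q k p q
    · have hc := cnt_pos hk' hQ
      by_cases hR : Q (K + 1) R S
      · simp only [hQ, hR, if_true, true_and]
        have : (i < cnt Q K k p q + 1) ↔ (i - 1 < cnt Q K k p q) := by omega
        simp only [this]
      · simp only [hQ, hR, if_false, true_and, add_zero]
    · simp only [hQ, false_and, if_false]
  have h2 : mass Q (K + 1) R S i
      = ∑ k ∈ range (K + 1), (4 : ℝ) ^ k * ∑ p ∈ iv (K + 1 - k) R, ∑ q ∈ iv (K + 1 - k) S,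
        (if Q k p q ∧ (if Q (K + 1) R S then i - 1 else i) < cnt Q K k p q then (1 : ℝ) else 0)
        + (if Q (K + 1) R S ∧ i = 0 then (4 : ℝ) ^ (K + 1) else 0) := by
    unfold mass
    rw [sum_range_succ]
    congr 1
    · exact sum_congr rfl fun k hk => by rw [h1 k hk]
    · rw [Nat.sub_self, iv_zero, iv_zero, sum_singleton, sum_singleton, cnt_self]
      by_cases hR : Q (K + 1) R S
      · simp only [hR, if_true, true_and]
        by_cases hi : i = 0
        · simp [hi]
        · have : ¬ i < 1 := by omega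
          simp [hi, this]
      · simp [hR]
  rw [h2, add_comm]
  congr 1
  unfold mass
  simp only [← sum_add_distrib, ← mul_add]
  refine sum_congr rfl fun k hk => ?_
  have e : K + 1 - k = (K - k) + 1 := by have := mem_range.1 hk; omega
  rw [e, sum_iv_halves]
  congr 1
  simp only [sum_iv_halves, sum_add_distrib]

/-- **One more member costs the factor `1 - 1 / B`.** -/
theorem mass_step {B : ℝ} (hB : 1 ≤ B) : ∀ (K : ℕ) (R S : ℤ),
    (∀ j ≤ K, ∀ r ∈ iv (K - j) R, ∀ s ∈ iv (K - j) S, Q j r s →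
      mass Q j r s 0 ≤ B * 4 ^ j) →
    ∀ i, mass Q K R S (i + 1) ≤ (1 - 1 / B) * mass Q K R S i := by
  have hB0 : 0 < B := by linarith
  have hc : 0 ≤ 1 - 1 / B := by
    have : 1 / B ≤ 1 := by rw [div_le_one hB0]; exact hB
    linarith
  intro K
  induction K with
  | zero =>
    intro R S _ i
    have h : mass Q 0 R S (i + 1) = 0 := by
      unfold mass
      rw [sum_range_one, Nat.sub_self, iv_zero, iv_zero, sum_singleton, sum_singleton, cnt_self]
      split_ifs with h1 h2 h2 <;> simp_all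
    rw [h]
    exact mul_nonneg hc (mass_nonneg ..)
  | succ K ih =>
    intro R S hp i
    have sub : ∀ (a : ℤ), (a = 2 * R ∨ a = 2 * R + 1) → ∀ b : ℤ, (b = 2 * S ∨ b = 2 * S + 1) →
        ∀ i, mass Q K a b (i + 1) ≤ (1 - 1 / B) * mass Q K a b i := by
      intro a ha b hb
      refine ih a b fun j hj r hr s hs hQ => hp j (by omega) r ?_ s ?_ hQ
      · have e : K + 1 - j = (K - j) + 1 := by omega
        rw [e, mem_iv]
        rw [mem_iv] at hr
        have h : ix (K - j + 1) r = ix (K - j) r / 2 := by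
          unfold ix
          rw [pow_succ, Int.ediv_ediv_of_nonneg (by positivity)]
        rw [h, hr]
        omega
      · have e : K + 1 - j = (K - j) + 1 := by omega
        rw [e, mem_iv]
        rw [mem_iv] at hs
        have h : ix (K - j + 1) s = ix (K - j) s / 2 := by
          unfold ix
          rw [pow_succ, Int.ediv_ediv_of_nonneg (by positivity)]
        rw [h, hs]
        omega
    rw [mass_succ, mass_succ]
    by_cases hR : Q (K + 1) R S
    · simp only [hR, if_true, true_and, Nat.add_sub_cancel, Nat.succ_ne_zero, if_false, zero_add]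
      rcases Nat.eq_zero_or_pos i with hi | hi
      · subst hi
        simp only [Nat.zero_sub, if_true]
        have hT := hp (K + 1) le_rfl R (by rw [Nat.sub_self, iv_zero]; simp) S
          (by rw [Nat.sub_self, iv_zero]; simp) hR
        rw [mass_succ] at hT
        simp only [hR, if_true, true_and, Nat.zero_sub] at hT
        set T := mass Q K (2 * R) (2 * S) 0 + mass Q K (2 * R) (2 * S + 1) 0
          + (mass Q K (2 * R + 1) (2 * S) 0 + mass Q K (2 * R + 1) (2 * S + 1) 0) with hTd
        have h1 : (4 ^ (K + 1) + T) / B ≤ 4 ^ (K + 1) := by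
          rw [div_le_iff₀ hB0]
          linarith
        have h2 : (1 - 1 / B) * (4 ^ (K + 1) + T) = 4 ^ (K + 1) + T - (4 ^ (K + 1) + T) / B := by
          ring
        rw [h2]
        linarith
      · obtain ⟨l, rfl⟩ : ∃ l, i = l + 1 := ⟨i - 1, by omega⟩
        simp only [Nat.add_sub_cancel, Nat.succ_ne_zero, if_false, zero_add]
        have h1 := sub (2 * R) (Or.inl rfl) (2 * S) (Or.inl rfl) l
        have h2 := sub (2 * R) (Or.inl rfl) (2 * S + 1) (Or.inr rfl) l
        have h3 := sub (2 * R + 1) (Or.inr rfl) (2 * S) (Or.inl rfl) l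
        have h4 := sub (2 * R + 1) (Or.inr rfl) (2 * S + 1) (Or.inr rfl) l
        linarith
    · simp only [hR, if_false, false_and, zero_add]
      have h1 := sub (2 * R) (Or.inl rfl) (2 * S) (Or.inl rfl) i
      have h2 := sub (2 * R) (Or.inl rfl) (2 * S + 1) (Or.inr rfl) i
      have h3 := sub (2 * R + 1) (Or.inr rfl) (2 * S) (Or.inl rfl) i
      have h4 := sub (2 * R + 1) (Or.inr rfl) (2 * S + 1) (Or.inr rfl) i
      linarith

/-- the whole mass -/
theorem mass_zero (K : ℕ) (R S : ℤ) :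
    mass Q K R S 0 = ∑ k ∈ range (K + 1), (4 : ℝ) ^ k * ∑ p ∈ iv (K - k) R, ∑ q ∈ iv (K - k) S,
      if Q k p q then (1 : ℝ) else 0 := by
  unfold mass
  refine sum_congr rfl fun k hk => ?_
  have hk' : k ≤ K := by have := mem_range.1 hk; omega
  congr 1
  refine sum_congr rfl fun p _ => sum_congr rfl fun q _ => ?_
  by_cases hQ : Q k p q
  · have := cnt_pos hk' hQ
    have h : 0 < cnt Q K k p q := by omega
    simp [hQ, h]
  · simp [hQ]

/-- **Exponential decay**: the mass of the members with more than `i` members above. -/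
theorem pack_tail {B : ℝ} (hB : 1 ≤ B) {K : ℕ} {R S : ℤ}
    (hpack : ∀ j ≤ K, ∀ r ∈ iv (K - j) R, ∀ s ∈ iv (K - j) S, Q j r s →
      ∑ k ∈ range (j + 1), (4 : ℝ) ^ k * ∑ p ∈ iv (j - k) r, ∑ q ∈ iv (j - k) s,
        (if Q k p q then (1 : ℝ) else 0) ≤ B * 4 ^ j) (i : ℕ) :
    ∑ k ∈ range (K + 1), (4 : ℝ) ^ k * ∑ p ∈ iv (K - k) R, ∑ q ∈ iv (K - k) S,
        (if Q k p q ∧ i < cnt Q K k p q then (1 : ℝ) else 0)
      ≤ (1 - 1 / B) ^ i * ∑ k ∈ range (K + 1), (4 : ℝ) ^ k * ∑ p ∈ iv (K - k) R,
        ∑ q ∈ iv (K - k) S, (if Q k p q then (1 : ℝ) else 0) := by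
  have hB0 : 0 < B := by linarith
  have hc : 0 ≤ 1 - 1 / B := by
    have : 1 / B ≤ 1 := by rw [div_le_one hB0]; exact hB
    linarith
  have hs := mass_step (Q := Q) hB K R S fun j hj r hr s hs hQ => by
    rw [mass_zero]; exact hpack j hj r hr s hs hQ
  rw [← mass_zero]
  change mass Q K R S i ≤ _
  induction i with
  | zero => simp
  | succ i ih =>
    refine (hs i).trans ?_
    rw [pow_succ, mul_comm ((1 - 1 / B) ^ i) (1 - 1 / B), mul_assoc]
    exact mul_le_mul_of_nonneg_left ih hc

end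

end Vale.Agent.P141.H662
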